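import Mathlib

open Filter Topology
open scoped NNReal ENNReal

namespace Vale.Agent.P124.R2

namespace PZ

section General

variable {ι κ : Type*} {E : ι → Type*} [∀ i, NormedAddCommGroup (E i)] [∀ i, NormedSpace ℝ (E i)]
  {F : κ → Type*} [∀ i, NormedAddCommGroup (F i)] [∀ i, NormedSpace ℝ (F i)]

omit [∀ i, NormedSpace ℝ (E i)] in
lemma hasSum_norm (x : lp E 1) : HasSum (fun k => ‖x k‖) ‖x‖ := by
  have := lp.hasSum_norm (by simp : 0 < (1 : ℝ≥0∞).toReal) x
  simpa using this

omit [∀ i, NormedSpace ℝ (E i)] in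
lemma summable (x : lp E 1) : Summable (fun k => ‖x k‖) := (hasSum_norm x).summable

omit [∀ i, NormedSpace ℝ (E i)] in
lemma memlp_of_summable {x : ∀ k, E k} (h : Summable fun k => ‖x k‖) : Memℓp x 1 := by
  apply memℓp_gen
  simpa using h

omit [∀ i, NormedSpace ℝ (E i)] in
lemma norm_le_of_hasSum {x : lp E 1} {C : ℝ} (h : HasSum (fun k => ‖x k‖) C) : ‖x‖ = C :=
  (hasSum_norm x).unique h

/-- A bounded operator between `l1`-sums from a linear map of sequences. -/
noncomputable def mk (Φ : (∀ i, E i) →ₗ[ℝ] (∀ k, F k)) (C : ℝ)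
    (h : ∀ x : lp E 1, ∃ S : ℝ, HasSum (fun k => ‖Φ x k‖) S ∧ S ≤ C * ‖x‖) :
    lp E 1 →L[ℝ] lp F 1 :=
  LinearMap.mkContinuous
    { toFun := fun x => ⟨Φ x, memlp_of_summable (h x).choose_spec.1.summable⟩
      map_add' := fun x y => by
        apply lp.ext
        change Φ (⇑(x + y)) = Φ x + Φ y
        rw [lp.coeFn_add, map_add]
      map_smul' := fun c x => by
        apply lp.ext
        change Φ (⇑(c • x)) = c • Φ x
        rw [lp.coeFn_smul, map_smul] } C
    (fun x => by
      obtain ⟨S, hS, hle⟩ := h x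
      refine le_trans (le_of_eq ?_) hle
      exact norm_le_of_hasSum hS)

@[simp] lemma mk_apply (Φ : (∀ i, E i) →ₗ[ℝ] (∀ k, F k)) (C : ℝ)
    (h : ∀ x : lp E 1, ∃ S : ℝ, HasSum (fun k => ‖Φ x k‖) S ∧ S ≤ C * ‖x‖) (x : lp E 1) (k : κ) :
    mk Φ C h x k = Φ x k := rfl

end General

section Reindex

variable {ι κ : Type*} {E : ι → Type*} [∀ i, NormedAddCommGroup (E i)] [∀ i, NormedSpace ℝ (E i)]
  {F : κ → Type*} [∀ i, NormedAddCommGroup (F i)] [∀ i, NormedSpace ℝ (F i)]

/-- Reindexing of `l1`-sums. -/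
noncomputable def reindex (e : κ ≃ ι) (u : ∀ k, E (e k) ≃ₗᵢ[ℝ] F k) : lp E 1 →L[ℝ] lp F 1 :=
  mk
    { toFun := fun x k => u k (x (e k))
      map_add' := fun x y => by ext k; simp
      map_smul' := fun c x => by ext k; simp } 1
    (fun x => ⟨‖x‖, by
      have := (e.hasSum_iff (f := fun i => ‖x i‖)).2 (hasSum_norm x)
      simpa [Function.comp_def] using this, by simp⟩)

lemma reindex_apply (e : κ ≃ ι) (u : ∀ k, E (e k) ≃ₗᵢ[ℝ] F k) (x : lp E 1) (k : κ) :
    reindex e u x k = u k (x (e k)) := rfl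

/-- The identity along an equality of indices. -/
noncomputable def castI {i j : ι} (h : i = j) : E i ≃ₗᵢ[ℝ] E j := h ▸ LinearIsometryEquiv.refl ℝ _

lemma castI_apply {i j : ι} (h : i = j) (x : ∀ i, E i) : castI h (x i) = x j := by
  subst h; rfl

/-- Reindexing of `l1`-sums of the same family. -/
noncomputable def reindexEquiv (e : κ ≃ ι) (u : ∀ k, E (e k) ≃ₗᵢ[ℝ] F k) :
    lp E 1 ≃L[ℝ] lp F 1 := by
  classical
  let v : ∀ i, F (e.symm i) ≃ₗᵢ[ℝ] E i := fun i =>
    (u (e.symm i)).symm.trans (castI (E := E) (e.apply_symm_apply i))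
  refine ContinuousLinearEquiv.equivOfInverse (reindex e u) (reindex e.symm v) ?_ ?_
  · intro x
    apply lp.ext
    funext i
    rw [reindex_apply]
    change castI (e.apply_symm_apply i) ((u (e.symm i)).symm (reindex e u x (e.symm i))) = x i
    rw [reindex_apply, LinearIsometryEquiv.symm_apply_apply, castI_apply]
  · intro y
    apply lp.ext
    funext k
    rw [reindex_apply, reindex_apply]
    change u k (castI (e.apply_symm_apply (e k)) ((u (e.symm (e k))).symm (y (e.symm (e k))))) = y k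
    have : ∀ (k' : κ) (hk : k' = k) (he : e k' = e k),
        u k (castI (E := E) he ((u k').symm (y k'))) = y k := by
      intro k' hk he
      subst hk
      have : castI (E := E) he ((u k').symm (y k')) = (u k').symm (y k') := by
        have := castI_apply (E := E) he (fun i => if h : e k' = i then
          castI (E := E) h ((u k').symm (y k')) else 0)
        simp only [dite_true] at this
        simp [castI]
      rw [this, LinearIsometryEquiv.apply_symm_apply]
    exact this _ (e.symm_apply_apply k) _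

end Reindex

section Curry

variable {ι κ : Type*} {E : ι × κ → Type*} [∀ i, NormedAddCommGroup (E i)]
  [∀ i, NormedSpace ℝ (E i)]

/-- Slices of an element of an `l1`-sum over a product. -/
noncomputable def slice (x : lp E 1) (i : ι) : lp (fun k : κ => E (i, k)) 1 :=
  ⟨fun k => x (i, k), memlp_of_summable ((summable x).comp_injective
    (fun a b h => by simpa using h))⟩

omit [∀ i, NormedSpace ℝ (E i)] in
@[simp] lemma slice_apply (x : lp E 1) (i : ι) (k : κ) : slice x i k = x (i, k) := rfl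

omit [∀ i, NormedSpace ℝ (E i)] in
lemma hasSum_slice (x : lp E 1) : HasSum (fun i => ‖slice x i‖) ‖x‖ := by
  refine (hasSum_norm x).prod_fiberwise fun i => ?_
  exact hasSum_norm (slice x i)

/-- Currying (as a function). -/
noncomputable def curryFun (x : lp E 1) : lp (fun i : ι => lp (fun k : κ => E (i, k)) 1) 1 :=
  ⟨fun i => slice x i, memlp_of_summable (hasSum_slice x).summable⟩

lemma curryFun_apply (x : lp E 1) (i : ι) : curryFun x i = slice x i := rfl

lemma norm_curryFun (x : lp E 1) : ‖curryFun x‖ = ‖x‖ :=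
  (hasSum_norm (curryFun x)).unique (hasSum_slice x)

/-- Currying. -/
noncomputable def curry : lp E 1 →L[ℝ] lp (fun i : ι => lp (fun k : κ => E (i, k)) 1) 1 :=
  LinearMap.mkContinuous
    { toFun := curryFun
      map_add' := fun x y => by
        apply lp.ext; funext i; apply lp.ext; funext k; rfl
      map_smul' := fun c x => by
        apply lp.ext; funext i; apply lp.ext; funext k; rfl } 1
    (fun x => by
      rw [one_mul]
      exact (norm_curryFun x).le)

lemma curry_apply (x : lp E 1) : curry x = curryFun x := rfl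

omit [∀ i, NormedSpace ℝ (E i)] in
lemma hasSum_uncurry (y : lp (fun i : ι => lp (fun k : κ => E (i, k)) 1) 1) :
    HasSum (fun p : ι × κ => ‖y p.1 p.2‖) ‖y‖ := by
  have hs : Summable (fun p : ι × κ => ‖y p.1 p.2‖) := by
    rw [summable_prod_of_nonneg (fun p => norm_nonneg _)]
    refine ⟨fun i => summable (y i), ?_⟩
    have : (fun i => ∑' k, ‖y i k‖) = fun i => ‖y i‖ := by
      funext i
      exact (hasSum_norm (y i)).tsum_eq
    simpa [this] using summable y
  have h1 : HasSum (fun i => ‖y i‖) (∑' p : ι × κ, ‖y p.1 p.2‖) :=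
    hs.hasSum.prod_fiberwise fun i => hasSum_norm (y i)
  have h2 := (hasSum_norm y).unique h1
  rw [h2]
  exact hs.hasSum

/-- Uncurrying (as a function). -/
noncomputable def uncurryFun (y : lp (fun i : ι => lp (fun k : κ => E (i, k)) 1) 1) : lp E 1 :=
  ⟨fun p => y p.1 p.2, memlp_of_summable (hasSum_uncurry y).summable⟩

lemma uncurryFun_apply (y : lp (fun i : ι => lp (fun k : κ => E (i, k)) 1) 1) (p : ι × κ) :
    uncurryFun y p = y p.1 p.2 := rfl

lemma norm_uncurryFun (y : lp (fun i : ι => lp (fun k : κ => E (i, k)) 1) 1) :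
    ‖uncurryFun y‖ = ‖y‖ :=
  (hasSum_norm (uncurryFun y)).unique (hasSum_uncurry y)

/-- Uncurrying. -/
noncomputable def uncurry : lp (fun i : ι => lp (fun k : κ => E (i, k)) 1) 1 →L[ℝ] lp E 1 :=
  LinearMap.mkContinuous
    { toFun := uncurryFun
      map_add' := fun x y => by
        apply lp.ext; funext p; rfl
      map_smul' := fun c x => by
        apply lp.ext; funext p; rfl } 1
    (fun y => by
      rw [one_mul]
      exact (norm_uncurryFun y).le)

lemma uncurry_apply (y : lp (fun i : ι => lp (fun k : κ => E (i, k)) 1) 1) :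
    uncurry y = uncurryFun y := rfl

/-- The currying equivalence. -/
noncomputable def curryEquiv :
    lp E 1 ≃L[ℝ] lp (fun i : ι => lp (fun k : κ => E (i, k)) 1) 1 :=
  ContinuousLinearEquiv.equivOfInverse curry uncurry
    (fun x => by
      rw [curry_apply, uncurry_apply]
      apply lp.ext; funext p; rfl)
    (fun y => by
      rw [curry_apply, uncurry_apply]
      apply lp.ext; funext i; apply lp.ext; funext k; rfl)

end Curry

section Const

variable {X Z : Type*} [NormedAddCommGroup X] [NormedSpace ℝ X]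
  [NormedAddCommGroup Z] [NormedSpace ℝ Z]

/-- Left shift. -/
noncomputable def shiftL : lp (fun _ : ℕ => X) 1 →L[ℝ] lp (fun _ : ℕ => X) 1 :=
  mk
    { toFun := fun x n => x (n + 1)
      map_add' := fun x y => rfl
      map_smul' := fun c x => rfl } 1
    (fun x => by
      have h := hasSum_norm x
      have h1 := (hasSum_nat_add_iff' 1).2 h
      refine ⟨_, h1, ?_⟩
      simp)

lemma shiftL_apply (x : lp (fun _ : ℕ => X) 1) (n : ℕ) : shiftL x n = x (n + 1) := rfl

/-- Right shift. -/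
noncomputable def shiftR : lp (fun _ : ℕ => X) 1 →L[ℝ] lp (fun _ : ℕ => X) 1 :=
  mk
    { toFun := fun x n => Nat.casesOn n 0 x
      map_add' := fun x y => by
        funext n
        cases n with
        | zero => simp
        | succ n => rfl
      map_smul' := fun c x => by
        funext n
        cases n with
        | zero => simp
        | succ n => rfl } 1
    (fun x => by
      have h := hasSum_norm x
      refine ⟨‖x‖, ?_, by simp⟩
      rw [← hasSum_nat_add_iff' 1]
      simpa using h)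

lemma shiftR_zero (x : lp (fun _ : ℕ => X) 1) : shiftR x 0 = 0 := rfl

lemma shiftR_succ (x : lp (fun _ : ℕ => X) 1) (n : ℕ) : shiftR x (n + 1) = x n := rfl

/-- Coordinatewise application of an operator. -/
noncomputable def mapL (A : X →L[ℝ] Z) : lp (fun _ : ℕ => X) 1 →L[ℝ] lp (fun _ : ℕ => Z) 1 :=
  mk
    { toFun := fun x n => A (x n)
      map_add' := fun x y => by funext n; simp
      map_smul' := fun c x => by funext n; simp } ‖A‖
    (fun x => by
      have h := (hasSum_norm x).mul_left ‖A‖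
      have hs : Summable fun n => ‖A (x n)‖ :=
        Summable.of_nonneg_of_le (fun n => norm_nonneg _) (fun n => A.le_opNorm _) h.summable
      exact ⟨_, hs.hasSum, hasSum_le (fun n => A.le_opNorm _) hs.hasSum h⟩)

lemma mapL_apply (A : X →L[ℝ] Z) (x : lp (fun _ : ℕ => X) 1) (n : ℕ) :
    mapL A x n = A (x n) := rfl

variable {Y : Type*} [NormedAddCommGroup Y] [NormedSpace ℝ Y]

/-- The `l1`-sum of copies of `X` absorbs complemented subspaces of `X`. -/
noncomputable def absorb (S : Y →L[ℝ] X) (Q : X →L[ℝ] Y) (hQS : ∀ y, Q (S y) = y) :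
    lp (fun _ : ℕ => X) 1 ≃L[ℝ] (Y × lp (fun _ : ℕ => X) 1) := by
  let P : X →L[ℝ] X := S ∘L Q
  have hP : ∀ x, P x = S (Q x) := fun x => rfl
  let f : lp (fun _ : ℕ => X) 1 →L[ℝ] Y × lp (fun _ : ℕ => X) 1 :=
    (Q ∘L lp.evalCLM ℝ (fun _ : ℕ => X) 1 0).prod
      (mapL P ∘L shiftL + mapL (ContinuousLinearMap.id ℝ X - P))
  let g : Y × lp (fun _ : ℕ => X) 1 →L[ℝ] lp (fun _ : ℕ => X) 1 :=
    (lp.singleContinuousLinearMap ℝ (fun _ : ℕ => X) 1 0 ∘L S) ∘L
        ContinuousLinearMap.fst ℝ Y (lp (fun _ : ℕ => X) 1)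
      + (mapL P ∘L shiftR + mapL (ContinuousLinearMap.id ℝ X - P)) ∘L
        ContinuousLinearMap.snd ℝ Y (lp (fun _ : ℕ => X) 1)
  have hf1 : ∀ x, (f x).1 = Q (x 0) := fun x => rfl
  have hf2 : ∀ x n, (f x).2 n = P (x (n + 1)) + (x n - P (x n)) := fun x n => rfl
  have hg0 : ∀ y : Y, ∀ x : lp (fun _ : ℕ => X) 1, g (y, x) 0 = S y + (x 0 - P (x 0)) := by
    intro y x
    change (lp.single 1 0 (S y) + (mapL P (shiftR x) + (mapL (ContinuousLinearMap.id ℝ X - P)) x)
      : lp (fun _ : ℕ => X) 1) 0 = _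
    rw [lp.coeFn_add, Pi.add_apply, lp.coeFn_add, Pi.add_apply, lp.single_apply_self, mapL_apply,
      mapL_apply, shiftR_zero, map_zero, zero_add]
    rfl
  have hg1 : ∀ y : Y, ∀ x : lp (fun _ : ℕ => X) 1, ∀ n,
      g (y, x) (n + 1) = P (x n) + (x (n + 1) - P (x (n + 1))) := by
    intro y x n
    change (lp.single 1 0 (S y) + (mapL P (shiftR x) + (mapL (ContinuousLinearMap.id ℝ X - P)) x)
      : lp (fun _ : ℕ => X) 1) (n + 1) = _
    rw [lp.coeFn_add, Pi.add_apply, lp.coeFn_add, Pi.add_apply,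
      lp.single_apply_ne _ _ _ (Nat.succ_ne_zero n), mapL_apply, mapL_apply, shiftR_succ, zero_add]
    rfl
  refine ContinuousLinearEquiv.equivOfInverse f g ?_ ?_
  · intro x
    apply lp.ext
    funext n
    obtain ⟨⟨y, z⟩, hyz⟩ : ∃ q, f x = q := ⟨_, rfl⟩
    have e1 : y = Q (x 0) := by rw [← hf1, hyz]
    have e2 : ∀ n, z n = P (x (n + 1)) + (x n - P (x n)) := by
      intro n; rw [← hf2, hyz]
    rw [hyz]
    cases n with
    | zero =>
      rw [hg0, e1, e2]
      simp [hP, hQS]
    | succ n =>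
      rw [hg1, e2, e2]
      simp [hP, hQS]
  · rintro ⟨y, x⟩
    refine Prod.ext ?_ ?_
    · rw [hf1, hg0]
      simp [hP, hQS]
    · apply lp.ext
      funext n
      rw [hf2]
      cases n with
      | zero =>
        rw [hg1, hg0]
        simp [hP, hQS]
      | succ n =>
        rw [hg1, hg1]
        simp [hP, hQS]

end Const

end PZ

/-- Part D: the Pelczynski decomposition method. -/
theorem pelczynski {X Y : Type*} [NormedAddCommGroup X] [NormedSpace ℝ X] [CompleteSpace X]
    [NormedAddCommGroup Y] [NormedSpace ℝ Y] [CompleteSpace Y]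
    (hX : Nonempty (X ≃L[ℝ] lp (fun _ : ℕ => X) 1))
    (S : Y →L[ℝ] X) (Q : X →L[ℝ] Y) (hQS : ∀ y, Q (S y) = y)
    (T : X →L[ℝ] Y) (G : Y →L[ℝ] X) (hGT : ∀ x, G (T x) = x) :
    Nonempty (X ≃L[ℝ] Y) := by
  obtain ⟨e⟩ := hX
  have a1 : X ≃L[ℝ] (Y × X) :=
    (e.trans (PZ.absorb S Q hQS)).trans ((ContinuousLinearEquiv.refl ℝ Y).prodCongr e.symm)
  have a2 : X ≃L[ℝ] (X × X) :=
    (e.trans (PZ.absorb (ContinuousLinearMap.id ℝ X) (ContinuousLinearMap.id ℝ X)
      (fun _ => rfl))).trans ((ContinuousLinearEquiv.refl ℝ X).prodCongr e.symm)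
  have a3 : Y ≃L[ℝ] (X × G.ker) := ContinuousLinearEquiv.equivOfRightInverse G T hGT
  have a4 : (Y × X) ≃L[ℝ] Y := by
    refine ContinuousLinearEquiv.trans (ContinuousLinearEquiv.prodComm ℝ Y X) ?_
    refine ContinuousLinearEquiv.trans ((ContinuousLinearEquiv.refl ℝ X).prodCongr a3) ?_
    refine ContinuousLinearEquiv.trans (ContinuousLinearEquiv.prodAssoc ℝ X X G.ker).symm ?_
    exact ContinuousLinearEquiv.trans (a2.symm.prodCongr (ContinuousLinearEquiv.refl ℝ G.ker))
      a3.symm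
  exact ⟨a1.trans a4⟩

theorem lp_one_real_self_sum :
    Nonempty (lp (fun _ : ℕ => ℝ) 1 ≃L[ℝ] lp (fun _ : ℕ => lp (fun _ : ℕ => ℝ) 1) 1) :=
  ⟨(PZ.reindexEquiv (E := fun _ : ℕ => ℝ) (F := fun _ : ℕ × ℕ => ℝ) Nat.pairEquiv
    (fun _ => LinearIsometryEquiv.refl ℝ ℝ)).trans (PZ.curryEquiv (E := fun _ : ℕ × ℕ => ℝ))⟩

/-- The index bijection used in `lp_one_self_sum`. -/
def pairAssoc : ℕ × ℕ ≃ ℕ :=
  ((Equiv.refl ℕ).prodCongr Nat.pairEquiv.symm).trans
    ((Equiv.prodComm ℕ (ℕ × ℕ)).trans ((Equiv.prodAssoc ℕ ℕ ℕ).trans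
      (((Equiv.refl ℕ).prodCongr Nat.pairEquiv).trans Nat.pairEquiv)))

lemma pairAssoc_fst (p : ℕ × ℕ) : (Nat.unpair (pairAssoc p)).1 = (Nat.unpair p.2).1 := by
  obtain ⟨m, n⟩ := p
  change (Nat.unpair (Nat.pair (Nat.unpair n).1 (Nat.pair (Nat.unpair n).2 m))).1 = _
  rw [Nat.unpair_pair]

theorem lp_one_self_sum (E : ℕ → Type*) [∀ i, NormedAddCommGroup (E i)]
    [∀ i, NormedSpace ℝ (E i)] [∀ i, CompleteSpace (E i)] :
    Nonempty (lp (fun n : ℕ => E (Nat.unpair n).1) 1 ≃L[ℝ]
      lp (fun _ : ℕ => lp (fun n : ℕ => E (Nat.unpair n).1) 1) 1) :=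
  ⟨(PZ.reindexEquiv (E := fun n : ℕ => E (Nat.unpair n).1)
    (F := fun p : ℕ × ℕ => E (Nat.unpair p.2).1) pairAssoc
    (fun p => PZ.castI (E := E) (pairAssoc_fst p))).trans
    (PZ.curryEquiv (E := fun p : ℕ × ℕ => E (Nat.unpair p.2).1))⟩

end Vale.Agent.P124.R2
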